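import Vale.Agent.P073Y.Inf.Real
import Vale.Agent.P073Z.Ax.All

/-!
# PL filling, and the topological machine with infinitely many good zones
-/

open Set Metric Topology Filter MeasureTheory
open scoped ENNReal NNReal

namespace P073.Inf

open TP STR Fill

variable {Q : RCx E3}

/-- assembly of a PL homeomorphism from a PL embedding of the two-skeleton; prescribed PL
embeddings of some three-cells are kept -/
theorem fill3 {Λ Y : Set E3} (ψ : ConHomeo (Q.skel 2) Y) (G : Set Q.ι) (k : Q.ι → E3 → E3)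
    (O : Q.ι → Set E3) (hΩ : IsOpen Q.carrier) (hne : Q.carrier.Nonempty) (hΛ : IsOpen Λ)
    (hΛc : IsPreconnected Λ) (hQ : Q.Cvx)
    (hG : ∀ i ∈ G, Q.dim i = 3 → PLOn (k i) (Q.cell i) ∧ InjOn (k i) (Q.cell i) ∧
      EqOn (k i) ψ.toFun (Q.bd i))
    (hO : ∀ i, Q.dim i = 3 → Convex ℝ (O i) ∧ O i ⊆ Λ ∧ ψ.toFun '' Q.bd i ⊆ O i)
    (hlf : LFIn O Λ) :
    ∃ Φ : ConHomeo Q.carrier Λ, EqOn Φ.toFun ψ.toFun (Q.skel 2) ∧
      (∀ i, Q.dim i = 3 → Φ.toFun '' Q.cell i ⊆ O i) ∧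
      ∀ i ∈ G, Q.dim i = 3 → EqOn Φ.toFun (k i) (Q.cell i) := by
  let e := ψ.cast (iUnion_bd hQ hΩ) rfl
  have H : ∀ i : {i // Q.dim i = 3},
      ∃ φ : ConHomeo (Q.cell i) (e.toFun '' Q.bd i ∪ Inside (e.toFun '' Q.bd i)),
        EqOn φ.toFun e.toFun (Q.bd i) ∧ (i.1 ∈ G → EqOn φ.toFun (k i) (Q.cell i)) := by
    intro i
    have hball := ball3 i.2
    by_cases hg : i.1 ∈ G
    · obtain ⟨h1, h2, h3⟩ := hG i hg i.2
      let φ := ConHomeo.ofCompact (Q.isCompact_cell i) (k i) h1.1 h2 h1.2 rfl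
      have hφ : φ.toFun = k i := ConHomeo.ofCompact_toFun _ _ _ _ _ _
      have h4 := hball.image φ Subset.rfl
      rw [hφ] at h4
      have h5 : k i '' Q.cell i = e.toFun '' Q.bd i ∪ Inside (e.toFun '' Q.bd i) := by
        rw [show e.toFun '' Q.bd i = k i '' Q.bd i from (image_congr h3).symm, jb.2 h4,
          union_sdiff_cancel h4.1]
      exact ⟨φ.cast rfl h5, fun x hx => (congrFun hφ x).trans (h3 hx), fun _ x _ => congrFun hφ x⟩
    · let b := ψ.restr hball.conicalSet_bdry (Q.bd_subset_skel (i := i.1) (k := 2) i.2.le)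
      have hs : ConSphere 2 (e.toFun '' Q.bd i) :=
        let ⟨σ⟩ := hball.conSphere; ⟨b.symm.trans σ⟩
      obtain ⟨φ, h1, -⟩ := hball.exists_extend (Ax.alex hs) b
      exact ⟨φ, h1, fun h => absurd h hg⟩
  choose φ a1 a2 using H
  choose z hz using fun i : {i // Q.dim i = 3} => Q.ocell_nonempty i.1
  obtain ⟨F, F', b1, b2, -, -, b5⟩ := asmg (fun i : {i // Q.dim i = 3} => Q.cell i)
    (fun i => Q.bd i) (fun i => O i) e (fun i => (φ i).toFun) (fun i => (φ i).invFun) z hΩ hne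
    hΛ hΛc (fun i => ball3 i.2)
    (iUnion_cell hQ hΩ) (Q.lfIn.comp_injective Subtype.val_injective)
    (fun i j hij => tiles hQ i.2 j.2 fun h => hij (Subtype.ext h))
    (fun i => ⟨(hO i i.2).1, (hO i i.2).2.2, (hO i i.2).2.1⟩)
    (hlf.comp_injective Subtype.val_injective)
    (fun i => ⟨hz i, homeoOn_con (φ i), a1 i,
      (φ i).conical.mono (conicalSet_punct (ball3 i.2).conicalSet _) sdiff_subset⟩)
  have hc : ConicalOn F Q.carrier := by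
    rw [← iUnion_cell hQ hΩ]
    refine ConicalOn.iUnion_of_locallyFinite (fun i => (φ i).conical.congr (b2 i))
      (fun x hx => ?_) fun i x _ hx => (Q.isClosed_cell i).closure_subset hx
    rw [iUnion_cell hQ hΩ] at hx
    exact (Q.lfIn.comp_injective Subtype.val_injective) x hx
  refine ⟨⟨F, F', b1.mapsTo, b1.mapsTo_inv, b1.left_inv, b1.right_inv, b1.cont, b1.cont_inv, hc⟩,
    fun x hx => ?_, fun i hi => b5 ⟨i, hi⟩, fun i hg hi => (b2 ⟨i, hi⟩).trans (a2 ⟨i, hi⟩ hg)⟩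
  rw [iUnion_bd hQ hΩ] at hx
  obtain ⟨i, hx⟩ := mem_iUnion.1 hx
  exact (b2 i (Q.bd_subset i hx)).trans (a1 i hx)

/-- parametrisation of a realisation of the two-skeleton extending one of the one-skeleton;
prescribed PL parametrisations of some faces are kept -/
theorem fill2 {R : Q.ι → Set E3} (hR : Realiz Q 2 R) (ψ : ConHomeo (Q.skel 1) (Q.rskel R 1))
    (hψ : ∀ i, Q.dim i ≤ 1 → ψ.toFun '' Q.cell i = R i) (G : Set Q.ι) (k : Q.ι → E3 → E3)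
    (hG : ∀ i ∈ G, Q.dim i = 2 → PLOn (k i) (Q.cell i) ∧ InjOn (k i) (Q.cell i) ∧
      EqOn (k i) ψ.toFun (Q.bd i) ∧ k i '' Q.cell i = R i) :
    ∃ χ : ConHomeo (Q.skel 2) (Q.rskel R 2), EqOn χ.toFun ψ.toFun (Q.skel 1) ∧
      (∀ i, Q.dim i ≤ 2 → χ.toFun '' Q.cell i = R i) ∧
      ∀ i ∈ G, Q.dim i = 2 → EqOn χ.toFun (k i) (Q.cell i) := by
  have H : ∀ i, ∃ φ : E3 → E3, Q.dim i ≤ 2 → (∃ Φ : ConHomeo (Q.cell i) (R i),
      EqOn Φ.toFun φ (Q.cell i)) ∧ EqOn φ ψ.toFun (Q.cell i ∩ Q.skel 1) ∧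
      (i ∈ G → Q.dim i = 2 → EqOn φ (k i) (Q.cell i)) := by
    intro i
    by_cases h2 : Q.dim i = 2
    · rw [Q.cell_inter_skel h2]
      by_cases hg : i ∈ G
      · obtain ⟨h1, h3, h4, h5⟩ := hG i hg h2
        exact ⟨k i, fun _ => ⟨⟨ConHomeo.ofCompact (Q.isCompact_cell i) (k i) h1.1 h3 h1.2 h5,
          fun x _ => congrFun (ConHomeo.ofCompact_toFun _ _ _ _ _ _) x⟩, h4,
          fun _ _ _ _ => rfl⟩⟩
      · have hb := image_bd ψ hψ (i := i) (by omega)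
        obtain ⟨Φ, h1, -⟩ := (Q.ball i).exists_extend (hR.ball i h2.le)
          ((ψ.restr (Q.ball i).conicalSet_bdry (Q.bd_subset_skel (by omega))).cast rfl hb)
        exact ⟨Φ.toFun, fun _ => ⟨⟨Φ, fun _ _ => rfl⟩, h1, fun h => absurd h hg⟩⟩
    · exact ⟨ψ.toFun, fun hi => ⟨⟨(ψ.restr (Q.ball i).conicalSet
        (Q.cell_subset_skel (by omega))).cast rfl (hψ i (by omega)), fun _ _ => rfl⟩,
        fun _ _ => rfl, fun _ h => absurd h h2⟩⟩
  choose φ hφ using H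
  obtain ⟨χ, hχ⟩ := gluek Q 2 R φ hR (fun i hi => (hφ i hi).1)
    (fun i j hi hj x hx => by
      rcases Q.eq_or_subset_bd hj with rfl | hb
      · rfl
      · have hd := Q.dim_lt hb
        have hs : x ∈ Q.skel 1 := Q.cell_subset_skel (by omega) hx
        rw [(hφ i hi).2.1 ⟨hj hx, hs⟩, (hφ j (by omega)).2.1 ⟨hx, hs⟩])
  refine ⟨χ, fun x hx => ?_, fun i hi => ?_,
    fun i hg hi => (hχ i hi.le).trans ((hφ i hi.le).2.2 hg hi)⟩
  · obtain ⟨j, hj, hxj⟩ := Q.mem_skel.1 hx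
    rw [hχ j (by omega) hxj, (hφ j (by omega)).2.1 ⟨hxj, hx⟩]
  · obtain ⟨Φ, h⟩ := (hφ i hi).1
    rw [image_congr (hχ i hi), ← image_congr h, Φ.image_eq]

/-- a realisation of the two-skeleton is the image of a PL homeomorphism -/
theorem fillpl {Λ : Set E3} {R : Q.ι → Set E3} {G : Set Q.ι} {A : Q.ι → E3 →ᵃ[ℝ] E3}
    (O : Q.ι → Set E3) (hΩ : IsOpen Q.carrier) (hne : Q.carrier.Nonempty) (hΛ : IsOpen Λ)
    (hΛc : IsPreconnected Λ) (hQ : Q.Cvx) (hR : Realiz Q 2 R) (hG : GoodA Q R G A)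
    (hO : ∀ i, Q.dim i = 3 → Convex ℝ (O i) ∧ O i ⊆ Λ ∧
      ∀ j, Q.dim j ≤ 2 → Q.cell j ⊆ Q.cell i → R j ⊆ O i) (hlf : LFIn O Λ) :
    ∃ Φ : ConHomeo Q.carrier Λ, (∀ i, Q.dim i ≤ 2 → Φ.toFun '' Q.cell i = R i) ∧
      (∀ i, Q.dim i = 3 → Φ.toFun '' Q.cell i ⊆ O i) ∧
      (∀ i ∈ G, EqOn Φ.toFun (A i) (Q.cell i)) ∧
      ∀ e x y, Q.dim e = 1 → Q.cell e = segment ℝ x y → ∀ u ∈ Q.cell e, ∀ w ∈ Q.cell e,
        edist (Φ.toFun u) (Φ.toFun w) * edist x y ≤ μH[1] (R e) * edist u w := by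
  have hpl : ∀ i, PLOn (A i) (Q.cell i) := fun i =>
    ⟨(A i).continuous_of_finiteDimensional.continuousOn,
      conicalOn_of_affine (A i) (Q.ball i).conicalSet⟩
  obtain ⟨ψ, p1, p2, p3⟩ := one hQ hR hG
  obtain ⟨χ, q1, q2, q3⟩ := fill2 hR ψ p1 G (fun i => A i) fun i hg hi =>
    ⟨hpl i, (hG i hg).1, eqOn_bd hG p2 hi.le hg, ((hG i hg).2.2 hi.le).symm⟩
  have q4 : ∀ i ∈ G, Q.dim i ≤ 2 → EqOn χ.toFun (A i) (Q.cell i) := fun i hg hi => by
    by_cases h2 : Q.dim i = 2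
    · exact q3 i hg h2
    · exact (q1.mono (Q.cell_subset_skel (by omega))).trans (p2 i hg (by omega))
  obtain ⟨Φ, r1, r2, r3⟩ := fill3 χ G (fun i => A i) O hΩ hne hΛ hΛc hQ
    (fun i hg hi => ⟨hpl i, (hG i hg).1, eqOn_bd hG q4 hi.le hg⟩)
    (fun i hi => ⟨(hO i hi).1, (hO i hi).2.1, by
      rw [image_bd χ q2 hi.le]
      intro y hy
      obtain ⟨j, hj, hy⟩ := Q.mem_rbd.1 hy
      have := Q.dim_lt hj
      exact (hO i hi).2.2 j (by omega) (hj.trans (Q.bd_subset i)) hy⟩) hlf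
  refine ⟨Φ, fun i hi => ?_, r2, fun i hg => ?_, fun e x y he hs u hu w hw => ?_⟩
  · rw [image_congr (r1.mono (Q.cell_subset_skel hi)), q2 i hi]
  · by_cases hi : Q.dim i = 3
    · exact r3 i hg hi
    · have h2 : Q.dim i ≤ 2 := by have := dim_le_three hQ i; omega
      exact (r1.mono (Q.cell_subset_skel h2)).trans (q4 i hg h2)
  · have h1 := Q.cell_subset_skel (i := e) (k := 1) he.le
    have h2 := Q.cell_subset_skel (i := e) (k := 2) (by omega)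
    rw [r1 (h2 hu), r1 (h2 hw), q1 (h1 hu), q1 (h1 hw)]
    exact p3 e x y he hs u hu w hw

/-- the topological machine with infinitely many good zones: a PL homeomorphism which is
affine on all good cells, maps cells into the given convex sets, and has short wires -/
theorem topoi : ∃ K₂ : ℝ≥0, ∀ {Ω Λ : Set E3} {f f' : E3 → E3} {Q : RCx E3} {β : ℕ → ℝ}
    {γ : ∀ n, Good Q f kap (β n)} {O : Q.ι → Set E3} {ϱ : Q.ι → ℝ} (η : Q.ι → ℝ≥0∞),
    Data Ω Λ f f' Q kap β γ O ϱ → IsPreconnected Λ → (∀ i, Q.dim i = 3 → Convex ℝ (O i)) →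
    (∀ i, 0 < η i) →
    ∃ g : ConHomeo Ω Λ, (∀ i, Q.dim i = 3 → g.toFun '' Q.cell i ⊆ O i) ∧
      (∀ l i, Q.dim i ≤ 2 → Q.cell i ⊆ Q.cell l → g.toFun '' Q.cell i ⊆ O l) ∧
      (∀ n, ∀ i ∈ (γ n).G, EqOn g.toFun ((γ n).A i) (Q.cell i)) ∧
      ∀ e x y, Q.dim e = 1 → Q.cell e = segment ℝ x y → ∀ u ∈ Q.cell e, ∀ w ∈ Q.cell e,
        edist (g.toFun u) (g.toFun w) * edist x y ≤ (K₂ * segVar f x y + η e) * edist u w := by
  classical
  obtain ⟨K₂, hK₂⟩ := reali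
  refine ⟨K₂, ?_⟩
  intro Ω Λ f f' Q β γ O ϱ η D hΛc hcv hη
  obtain ⟨R, hR, hRA, hRO, hRl⟩ := hK₂ η D hη
  have hcar := D.car
  subst hcar
  have hfO : ∀ l, ∀ x ∈ Q.cell l, f x ∈ O l := fun l x hx =>
    D.thick l (self_subset_thickening (D.rpos l) _ (mem_image_of_mem _ hx))
  have uniq : ∀ n m i, i ∈ (γ n).G → i ∈ (γ m).G → n = m := by
    intro n m i hn hm
    by_contra hne
    obtain ⟨v, hvi, hv⟩ := T0.exists_vertex (K := Q) i
    obtain ⟨x, hvx⟩ := Q.exists_vertex hv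
    have hx : x ∈ Q.cell i := hvi (hvx ▸ mem_singleton x)
    have h : ∀ k, i ∈ (γ k).G → (O i ∩ zn (γ k)).Nonempty := fun k hk =>
      ⟨f x, hfO i x hx, self_subset_cthickening _
        (vert_gim (γ k) D.cvx (A_vertex (γ k) hk hv hvx hx).1 hvx)⟩
    exact disjoint_left.1 (D.sep n m hne i i (h n hn) (h m hm)) (hfO i x hx) (hfO i x hx)
  let A : Q.ι → E3 →ᵃ[ℝ] E3 := fun i =>
    if h : ∃ n, i ∈ (γ n).G then (γ (Nat.find h)).A i else AffineMap.id ℝ E3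
  have hA : ∀ n, ∀ i ∈ (γ n).G, A i = (γ n).A i := fun n i hi => by
    have h : ∃ n, i ∈ (γ n).G := ⟨n, hi⟩
    simp only [A, dif_pos h]
    have := uniq n _ i hi (Nat.find_spec h)
    rw [← this]
  obtain ⟨Φ, a1, a2, a3, a4⟩ := fillpl (G := {i | ∃ n, i ∈ (γ n).G}) (A := A) O D.oΩ
    D.cΩ.nonempty D.oΛ hΛc D.cvx hR (by
      rintro i ⟨n, hi⟩
      rw [hA n i hi]
      refine ⟨(γ n).inj i hi, fun j hj => ?_, hRA n i hi⟩
      obtain ⟨h1, -, -, h2⟩ := (γ n).face i hi j hj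
      exact ⟨⟨n, h1⟩, by rw [hA n j h1]; exact h2⟩)
    (fun i hi => ⟨hcv i hi, D.sub i, fun j hj hji => hRO i j hj hji⟩) D.lf
  refine ⟨Φ, a2, fun l i hi hil => a1 i hi ▸ hRO l i hi hil,
    fun n i hi => hA n i hi ▸ a3 i ⟨n, hi⟩, fun e x y he hs u hu w hw => ?_⟩
  exact (a4 e x y he hs u hu w hw).trans (mul_le_mul_left (hRl e x y he hs) _)

end P073.Inf
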