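import Vale.Agent.P073Z.GRID

/-!
# The target grid with a locally finite family of required levels
-/

open Set Metric Topology Filter MeasureTheory
open scoped ENNReal NNReal

namespace P073.Inf

open Grid Grid.Pl

def GRIDI : Prop := ∃ K₀ : ℝ≥0, ∀ {Λ : Set E3} (X : ℕ → Set E3) {f : E3 → E3} {ι κ : Type}
  (a b : ι → E3) (η : ι → ℝ≥0∞) {δ : E3 → ℝ} (s : ℕ → Finset κ) (co : κ → Fin 3)
  (A : ℕ → κ → Set ℝ),
  IsOpen Λ → Bornology.IsBounded Λ → Gauge δ Λ → LFIn X Λ → (∀ n, X n ⊆ Λ) →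
  (∀ e, a e ≠ b e ∧ ContinuousOn f (segment ℝ (a e) (b e)) ∧
    f '' segment ℝ (a e) (b e) ⊆ Λ ∧ segVar f (a e) (b e) < ⊤ ∧ 0 < η e) →
  LFIn (fun e => f '' segment ℝ (a e) (b e)) Λ →
  (∀ n, ∀ k ∈ s n, volume (A n k) ≠ 0) →
  ∃ K : RCx E3, K.Cvx ∧ K.carrier = Λ ∧ (∀ i, ∃ lo hi : E3, K.cell i = Icc lo hi) ∧
    (∀ i, Small δ (K.star i)) ∧ GoodLev K f a b ∧
    (∀ e, Disjoint (f '' segment ℝ (a e) (b e)) (K.skel 1) ∧
      crossSum K f (a e) (b e) ≤ K₀ * segVar f (a e) (b e) + η e) ∧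
    ∀ n, ∀ k ∈ s n, ∃ t ∈ A n k, ∀ y ∈ X n, y (co k) = t →
      ∃ S, K.dim S = 2 ∧ y ∈ K.cell S ∧ ∀ y' ∈ K.cell S, y' (co k) = t

theorem core {ι κ : Type} {f : E3 → E3} {c : ι → Set E3} {T : Fin 3 → Set ℝ} [Countable ι]
    (hT : ∀ j, ∀ᵐ t : ℝ, t ∈ T j)
    (hae : ∀ e j, ∀ᵐ t : ℝ, {x ∈ c e | f x j = t}.Finite) (N : ℕ → ι → Fin 3 → ℝ → ℝ≥0∞)
    (hm : ∀ n e j, Measurable (N n e j)) (hi : ∀ n e j, ∫⁻ t, N n e j t ≠ ⊤)
    (hN : ∀ n e j t, {x ∈ c e | f x j = t}.Finite → N n e j t ≠ ⊤)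
    (hs : ∀ n, ∃ s : Finset ι, ∀ e, e ∉ s → ∀ j t, N n e j t = 0) (R : ℝ) (d : ℕ → ℝ)
    (hd : ∀ n, 0 < d n) (ε : ι → ℕ → ℝ≥0∞) (hε : ∀ e n, ε e n ≠ 0) (s : ℕ → Finset κ)
    (co : κ → Fin 3) (A : κ → Set ℝ) (hA : ∀ n, ∀ k ∈ s n, volume (A k) ≠ 0) :
    ∃ (P : ℕ → Fin 3 → Finset ℝ) (h : ℕ → ℝ), (∀ n j, P n j ⊆ P (n + 1) j) ∧
      (∀ n, 0 < h n ∧ h n ≤ d n) ∧ (∀ n, Inv f c T (P n)) ∧
      (∀ n j, ∀ x ∈ Icc (-R) R, (∃ t ∈ P n j, x - h n ≤ t ∧ t < x) ∧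
        ∃ t ∈ P n j, x < t ∧ t ≤ x + h n) ∧
      (∀ n, ∀ k ∈ s n, ∃ t ∈ A k, t ∈ P n (co k)) ∧
      ∀ e n j, ENNReal.ofReal (h n) * ∑ t ∈ P n j, N n e j t ≤
        2 * (∫⁻ t : ℝ, N n e j t) + ε e n := by
  classical
  have h0 : Inv f c T (fun _ => ∅) := ⟨by simp, by simp⟩
  choose Q hQ hQ' using fun (n : ℕ) (P : {P // Inv f c T P}) =>
    extend hT hae P.2 (fun _ Q => ∀ k ∈ s n, ∃ t ∈ A k, t ∈ Q) (by
      intro j Z hZ
      have : ∀ k, ∃ t, k ∈ s n → t ∈ A k ∧ t ∉ Z := by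
        intro k
        by_cases hk : k ∈ s n
        · have h1 := hA n k hk
          rw [← measure_sdiff_null hZ] at h1
          obtain ⟨t, ht⟩ := nonempty_of_measure_ne_zero h1
          exact ⟨t, fun _ => ht⟩
        · exact ⟨0, fun h => absurd h hk⟩
      choose t ht using this
      refine ⟨(s n).image t, fun u hu => ?_,
        fun k hk => ⟨t k, (ht k hk).1, Finset.mem_image_of_mem t hk⟩⟩
      obtain ⟨k, hk, rfl⟩ := Finset.mem_image.1 hu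
      exact (ht k hk).2)
  choose sn hsn using hs
  choose P' h h1 h2 h3 h4 h5 h6 using fun (n : ℕ) (P : {P // Inv f c T P}) =>
    stage hT hae (N n) (hm n) (hi n) (hN n) (sn n) (hsn n) R (hd n) (fun e => ε e n)
      (fun e => hε e n) (hQ n P)
  let S : ℕ → {P // Inv f c T P} := fun n =>
    Nat.rec ⟨_, h0⟩ (fun n P => ⟨P' n P, h1 n P⟩) n
  refine ⟨fun n => P' n (S n), fun n => h n (S n), fun n j =>
    Finset.subset_union_left.trans (h2 (n + 1) (S (n + 1)) j),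
    fun n => ⟨h3 _ _, h4 _ _⟩, fun n => h1 _ _, fun n => h5 _ _, fun n k hk => ?_,
    fun e n j => h6 _ _ e j⟩
  obtain ⟨t, ht, ht'⟩ := hQ' n (S n) (co k) k hk
  exact ⟨t, ht, h2 n (S n) (co k) (Finset.mem_union_right _ ht')⟩

theorem exists_planes {ι κ : Type} [Countable ι] {f : E3 → E3} (a b : ι → E3) (W : ℕ → Set E3)
    (hW : ∀ n, IsOpen (W n))
    (hf : ∀ e, a e ≠ b e ∧ ContinuousOn f (segment ℝ (a e) (b e)) ∧ segVar f (a e) (b e) < ⊤)
    (hfin : ∀ n, {e | (f '' segment ℝ (a e) (b e) ∩ W n).Nonempty}.Finite) (R : ℝ) (d : ℕ → ℝ)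
    (hd : ∀ n, 0 < d n) (ε : ι → ℕ → ℝ≥0∞) (hε : ∀ e n, ε e n ≠ 0) (T : Fin 3 → Set ℝ)
    (hT : ∀ j, ∀ᵐ t : ℝ, t ∈ T j) (s : ℕ → Finset κ) (co : κ → Fin 3) (A : κ → Set ℝ)
    (hA : ∀ n, ∀ k ∈ s n, volume (A k) ≠ 0) :
    ∃ (P : ℕ → Fin 3 → Finset ℝ) (h : ℕ → ℝ), (∀ n j, P n j ⊆ P (n + 1) j) ∧
      (∀ n, 0 < h n ∧ h n ≤ d n) ∧ (∀ n j, ∀ t ∈ P n j, t ∈ T j) ∧
      (∀ n j, ∀ x ∈ Icc (-R) R, (∃ t ∈ P n j, x - h n ≤ t ∧ t < x) ∧
        ∃ t ∈ P n j, x < t ∧ t ≤ x + h n) ∧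
      (∀ n i j, i ≠ j → ∀ e, ∀ x ∈ segment ℝ (a e) (b e), f x i ∈ P n i → f x j ∉ P n j) ∧
      (∀ n, ∀ k ∈ s n, ∃ t ∈ A k, t ∈ P n (co k)) ∧
      ∀ e n j, ENNReal.ofReal (h n) * ∑ t ∈ P n j, cnt f (a e) (b e) (W n ∩ {y | y j = t}) ≤
        2 * (∫⁻ t : ℝ, cnt f (a e) (b e) (W n ∩ {y | y j = t})) + ε e n := by
  obtain ⟨P, h, h1, h2, h3, h4, h5, h6⟩ := core (f := f) (c := fun e => segment ℝ (a e) (b e))
    hT (fun e j => ae_cnt_finite (hf e).1 (hf e).2.1 (hf e).2.2 j)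
    (fun n e j t => cnt f (a e) (b e) (W n ∩ {y | y j = t}))
    (fun n e j => measurable_cnt (hf e).1 (hf e).2.1 (hW n) j)
    (fun n e j => ne_top_of_le_ne_top (hf e).2.2.ne
      ((lintegral_mono fun t => cnt_mono f _ _ inter_subset_right).trans
        (lintegral_cnt_le (hf e).1 (hf e).2.1 j)))
    (fun n e j t ht => by
      refine ne_top_of_le_ne_top ?_ (cnt_mono f _ _ inter_subset_right)
      have : {x ∈ segment ℝ (a e) (b e) | f x ∈ {y : E3 | y j = t}}.encard ≠ ⊤ :=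
        ht.encard_lt_top.ne
      simpa [cnt] using this)
    (fun n => ⟨(hfin n).toFinset, fun e he j t => by
      have : {x ∈ segment ℝ (a e) (b e) | f x ∈ W n ∩ {y : E3 | y j = t}} = ∅ :=
        eq_empty_of_forall_notMem fun x hx =>
          he ((hfin n).mem_toFinset.2 ⟨f x, ⟨x, hx.1, rfl⟩, hx.2.1⟩)
      simp only [cnt]
      rw [this]
      simp⟩) R d hd ε hε s co A hA
  exact ⟨P, h, h1, h2, fun n j t ht => ((h3 n).1 j t ht).1, h4, fun n => (h3 n).2, h5, h6⟩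

theorem exists_face {K : RCx E3} {P : ℕ → Fin 3 → Finset ℝ} {W : ℕ → Set E3} {lev : K.ι → ℕ}
    {lo hi : K.ι → E3} (h : BoxCx K P W lev lo hi) (hK : IsOpen K.carrier) {j : Fin 3} {t : ℝ}
    {y : E3} (ht : ∀ n, y ∈ W n → t ∈ P n j) (hy : y ∈ K.carrier) (hyt : y j = t) :
    ∃ S, K.dim S = 2 ∧ y ∈ K.cell S ∧ ∀ y' ∈ K.cell S, y' j = t := by
  obtain ⟨ε, hε, hb⟩ := Metric.eventually_nhds_iff.1
    ((K.eventually_star hy).and (hK.mem_nhds hy))
  have h1 : ∀ k, ∃ z, z ∉ ⋃ n, (P n k : Set ℝ) ∧ dist (y k) z < ε := fun k =>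
    (Countable.dense_compl ℝ (countable_iUnion fun n => (P n k).countable_toSet)).exists_dist_lt
      (y k) hε
  choose z hz hzd using h1
  have h2 : dist (Function.update z j t) y < ε := by
    rw [dist_pi_lt_iff hε]
    intro k
    by_cases hk : k = j
    · subst hk
      simpa [hyt] using hε
    · rw [Function.update_of_ne hk, dist_comm]
      exact hzd k
  obtain ⟨h3, h4⟩ := hb h2
  obtain ⟨S, hS⟩ := K.exists_ocell h4
  have h5 := h3 S (K.ocell_subset S hS)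
  rw [h.ocell] at hS
  have h6 : lo S j = hi S j ∧ t = lo S j := by
    rcases hS j with k | k
    · simpa using k
    · rw [Function.update_self] at k
      have hg := (h.box S j).resolve_left fun k' => (k.1.trans k.2).ne k'.1
      rcases hg.2.2.2 t (ht _ (h.sub S h5)) with k' | k'
      · exact absurd k.1 (not_lt.2 k')
      · exact absurd k.2 (not_lt.2 k')
  have h7 : ∀ k, k ≠ j → lo S k < hi S k := fun k hk => by
    rcases hS k with k1 | k1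
    · rw [Function.update_of_ne hk] at k1
      exact absurd (mem_iUnion.2 ⟨lev S, k1.2 ▸ ((h.box S).mem k).1⟩) (hz k)
    · exact k1.1.trans k1.2
  refine ⟨S, ?_, h5, fun y' hy' => ?_⟩
  · have h8 : (Finset.univ.filter fun k => ¬ lo S k < hi S k) = {j} := by
      ext k
      simp only [Finset.mem_filter, Finset.mem_univ, true_and, Finset.mem_singleton]
      exact ⟨fun k1 => by_contra fun k2 => k1 (h7 k k2), fun k1 => k1 ▸ h6.1.not_lt⟩
    have := h.card_deg S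
    rw [h8, Finset.card_singleton] at this
    omega
  · rw [h.cell] at hy'
    rw [h6.2]
    exact le_antisymm ((hy'.2 j).trans h6.1.ge) (hy'.1 j)

theorem gridi : GRIDI := by
  classical
  refine ⟨288, ?_⟩
  intro Λ X f ι κ a b η δ s co A hΛ hb hδ hXlf hX hw hlf hA
  have : Countable ι := hlf.countable fun e =>
    ⟨f (a e), mem_image_of_mem f (left_mem_segment ℝ _ _),
      (hw e).2.2.1 (mem_image_of_mem f (left_mem_segment ℝ _ _))⟩
  obtain ⟨Z, W, C, hcov, hr, hov⟩ := exists_rings hΛ hb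
  have hWΛ : ∀ n, W n ⊆ Λ := fun n => (hr n).2.2.2.1.trans (hr n).2.2.2.2.2
  have hfin : ∀ n, {e | (f '' segment ℝ (a e) (b e) ∩ W n).Nonempty}.Finite := fun n =>
    (hlf.finite_meet (hr n).2.2.2.2.1 (hr n).2.2.2.2.2).subset fun e he =>
      he.mono (inter_subset_inter_right _ (hr n).2.2.2.1)
  have hXf : ∀ n, {m | (X m ∩ W n).Nonempty}.Finite := fun n =>
    (hXlf.finite_meet (hr n).2.2.2.2.1 (hr n).2.2.2.2.2).subset fun e he =>
      he.mono (inter_subset_inter_right _ (hr n).2.2.2.1)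
  obtain ⟨r, hrg, hsm, -, hr2⟩ := hδ.exists_fine (N := 3) (by norm_num)
  choose c hc hcr using fun n => hrg.exists_lower (hr n).2.2.2.2.1 (hr n).2.2.2.2.2
  choose θ hθ hθW using fun n =>
    (hr n).1.exists_cthickening_subset_open (hr n).2.2.1 (hr n).2.1
  obtain ⟨R, hR⟩ := hb.subset_closedBall 0
  have hRm : ∀ y ∈ Λ, ∀ j, y j ∈ Icc (-R) R := fun y hy j =>
    abs_le.1 ((norm_le_pi_norm y j).trans (mem_closedBall_zero_iff.1 (hR hy)))
  choose ε hε hεs using fun e => ENNReal.exists_pos_sum_of_countable'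
    (ε := η e / 48) (ENNReal.div_ne_zero.2 ⟨(hw e).2.2.2.2.ne', by simp⟩) ℕ
  obtain ⟨P, h, p1, p2, p3, p4, p5, p6, p7⟩ := exists_planes (f := f) a b (fun n => W (n - 2))
    (fun n => (hr _).2.2.1) (fun e => ⟨(hw e).1, (hw e).2.1, (hw e).2.2.2.1⟩) (fun n => hfin _) R
    (fun n => min (θ n / 2) (c (n - 2) / 2)) (fun n => lt_min (half_pos (hθ n)) (half_pos (hc _)))
    (fun e n => ε e (n - 2)) (fun e n => (hε e _).ne') (LevSet f a b) (ae_levSet f a b)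
    (fun n => (hXf n).toFinset.biUnion fun m => (s m).image fun k => (m, k))
    (fun q : ℕ × κ => co q.2) (fun q => A q.1 q.2) (fun n q hq => by
      obtain ⟨m, -, hq⟩ := Finset.mem_biUnion.1 hq
      obtain ⟨k, hk, rfl⟩ := Finset.mem_image.1 hq
      exact hA m k hk)
  have side : ∀ n l u y, y ∈ Λ → Box (P n) l u → y ∈ Icc l u → ∀ j, u j - l j ≤ 2 * h n :=
    fun n l u y hy k1 k2 j => k1.side_le k2 (p2 n).1 j (p4 n j _ (hRm y hy j))
  obtain ⟨K, lev, lo, hi, hK, hcar, H⟩ := exists_boxCx (arr_of cvx) P W p1 hWΛ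
    (fun y hy => by
      obtain ⟨n, hn⟩ := hcov y hy
      obtain ⟨l, u, k1, k2⟩ := exists_box (P := P n) (x := y)
        (fun j => (p4 n j _ (hRm y hy j)).1.imp fun t ht => ⟨ht.1, ht.2.2.le⟩)
        (fun j => (p4 n j _ (hRm y hy j)).2.imp fun t ht => ⟨ht.1, ht.2.1.le⟩)
      have k3 := obox_subset l u k2
      refine ⟨n, l, u, k1, k3, fun z hz => hθW n (mem_cthickening_of_dist_le z y _ _ hn ?_)⟩
      have k4 := (p2 n).2.trans (min_le_left _ _)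
      exact dist_le_of_mem_Icc hz k3 (hθ n).le fun j => (side n l u y hy k1 k3 j).trans
        (by linarith))
    hov
    (fun x hx => by
      obtain ⟨m, hm⟩ := hcov x hx
      exact ⟨W m, (hr m).2.2.1.mem_nhds ((hr m).2.1 hm), (finite_Iic (m + 2)).subset
        fun n hn => hov m n (inter_comm _ _ ▸ hn)⟩)
  have hd : ∀ i j, hi i j - lo i j ≤ 2 * h (lev i + 2) := fun i j => by
    obtain ⟨y, hy⟩ := K.cell_nonempty i
    exact side _ _ _ y (hWΛ _ (H.sub i hy)) (H.box i) (H.cell i ▸ hy) j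
  have hdist : ∀ i, ∀ x ∈ K.cell i, ∀ y ∈ K.cell i, dist y x ≤ r x := fun i x hx y hy => by
    have k1 := (p2 (lev i + 2)).2.trans (min_le_right _ _)
    rw [Nat.add_sub_cancel] at k1
    refine (dist_le_of_mem_Icc (H.cell i ▸ hy) (H.cell i ▸ hx) (hc (lev i)).le fun j =>
      (hd i j).trans (by linarith)).trans (hcr _ x ((hr _).2.2.2.1 (H.sub i hx)))
  have hskel : ∀ e, Disjoint (f '' segment ℝ (a e) (b e)) (K.skel 1) := fun e => by
    rw [disjoint_left]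
    rintro _ ⟨x, hx, rfl⟩
    exact H.notMem_skel fun n i j hij => p5 _ i j hij e x hx
  refine ⟨K, hK, hcar, fun i => ⟨_, _, H.cell i⟩, fun i => ?_,
    H.goodLev (fun n => (hr n).2.2.1) hfin fun n => p3 _, fun e => ⟨hskel e, ?_⟩,
    fun m k hk => ?_⟩
  · obtain ⟨x, hx⟩ := K.cell_nonempty i
    have hxΛ := hWΛ _ (H.sub i hx)
    refine (hsm x hxΛ).mono (iUnion₂_subset fun j hj y hy => ⟨hWΛ _ (H.sub j hy), ?_⟩)
    obtain ⟨z, hzj, hzi⟩ := hj
    have k1 := hdist i x hx z hzi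
    have k2 := hdist j z hzj y hy
    have k0 := (hrg.2 x hxΛ).le
    have k3 := (hr2 x hxΛ z (by rw [dist_comm]; linarith)).1
    rw [mem_closedBall]
    linarith [dist_triangle y z x]
  · refine (H.crossSum_le (d := fun n => 2 * h (n + 2)) hd (hskel e)).trans
      ((Grid.sum_le (hw e).1 (hw e).2.1 (fun n => (hr n).2.2.1)
        (fun y => encard_le_three fun n hn n' hn' => hov n n' ⟨y, hn, hn'⟩)
        (h := fun n => h (n + 2)) (ε := ε e) fun n j => p7 e (n + 2) j).trans ?_)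
    refine add_le_add le_rfl ?_
    exact (mul_le_mul_right (hεs e).le _).trans ENNReal.mul_div_le
  · by_cases hne : ∃ n, (X m ∩ W n).Nonempty
    · obtain ⟨t, ht, htP⟩ := p6 (Nat.find hne) (m, k) (Finset.mem_biUnion.2
        ⟨m, (hXf _).mem_toFinset.2 (Nat.find_spec hne), Finset.mem_image_of_mem _ hk⟩)
      have hmono : Monotone fun n => P n (co k) := monotone_nat_of_le_succ fun n => p1 n _
      exact ⟨t, ht, fun y hy hyt => exists_face H (hcar ▸ hΛ)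
        (fun n hn => hmono ((Nat.find_min' hne ⟨y, hy, hn⟩).trans (Nat.le_add_right _ _)) htP)
        (hcar ▸ hX m hy) hyt⟩
    · obtain ⟨t, ht⟩ := nonempty_of_measure_ne_zero (hA m k hk)
      refine ⟨t, ht, fun y hy _ => absurd ?_ hne⟩
      obtain ⟨n, hn⟩ := hcov y (hX m hy)
      exact ⟨n, y, hy, (hr n).2.1 hn⟩

end P073.Inf
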