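import Vale.Agent.P073Y.Inf.Grid
import Vale.Agent.P073Z.TOPOF

/-!
# A PL embedding of the two-skeleton, with a locally finite family of required levels
-/

open Set Metric Topology Filter MeasureTheory
open scoped ENNReal NNReal

namespace P073.Inf

open TP

theorem exists_psi : ∃ K₃ : ℝ≥0,
    ∀ {Ω Λ : Set E3} (X : ℕ → Set E3) {f f' : E3 → E3} (Q : RCx E3) {κ : Type}
      (s : ℕ → Finset κ) (co : κ → Fin 3) (A : ℕ → κ → Set ℝ) (P : E3 → ℝ → Prop)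
      (η : Q.ι → ℝ≥0∞),
    IsOpen Ω → IsOpen Λ → IsConnected Ω → Bornology.IsBounded Λ → HomeoOn f f' Ω Λ →
    GenBV f Ω → Q.Cvx → Q.carrier = Ω →
    (∀ e x y, Q.dim e = 1 → Q.cell e = segment ℝ x y → segVar f x y < ⊤) →
    (∀ n, ∀ k ∈ s n, volume (A n k) ≠ 0) → LFIn X Λ → (∀ n, IsCompact (X n) ∧ X n ⊆ Λ) →
    (∀ x ∈ Ω, ∃ c > 0, ∀ᶠ y in 𝓝 x, P y c) → (∀ e, 0 < η e) →
    ∃ (t : ℕ → κ → ℝ) (Y : Set E3) (ψ : ConHomeo (Q.skel 2) Y),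
      (∀ n, ∀ k ∈ s n, t n k ∈ A n k ∧ ∀ e x y, Q.dim e = 1 → Q.cell e = segment ℝ x y →
        (∀ u ∈ Q.cell e, ψ.toFun u ∈ X n) →
        cnt ψ.toFun x y {z | z (co k) = t n k} ≤ cnt f x y {z | z (co k) = t n k}) ∧
      (∀ x ∈ Q.skel 2, ∃ c, P x c ∧ dist (ψ.toFun x) (f x) < c) ∧
      (∀ C, IsCompact C → C ⊆ Λ → {j | (ψ.toFun '' Q.cell j ∩ C).Nonempty}.Finite) ∧
      ∀ e x y, Q.dim e = 1 → Q.cell e = segment ℝ x y →
        μH[1] (ψ.toFun '' Q.cell e) ≤ K₃ * segVar f x y + η e := by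
  obtain ⟨K₀, hK₀⟩ := gridi
  obtain ⟨K₁, hK₁⟩ := sq_thm
  refine ⟨K₁ * K₀, ?_⟩
  intro Ω Λ X f f' Q κ s co A P η hΩ hΛ hΩc hΛb hf hG hQ hQΩ hV hA hXlf hX hP hη
  have h1 : ∀ e : {e // Q.dim e = 1}, ∃ a b : E3, a ≠ b ∧ Q.cell e = segment ℝ a b := fun e =>
    let ⟨p, q, _, _, h1, h2, _⟩ := hQ.exists_segment e.2; ⟨p, q, h1, h2⟩
  choose a b hab hseg using h1
  choose ζ hζ hζt hζη using fun e => exists_small K₁ (hη e)
  have hsΩ : ∀ e, segment ℝ (a e) (b e) ⊆ Ω := fun e =>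
    hseg e ▸ hQΩ ▸ Q.cell_subset_carrier _
  have hs2 : ∀ e, segment ℝ (a e) (b e) ⊆ Q.skel 2 := fun e =>
    hseg e ▸ Q.cell_subset_skel (by have := e.2; omega)
  have hlf : LFIn (fun e => segment ℝ (a e) (b e)) Ω := by
    have := Q.lfIn.comp_injective (Subtype.val_injective (p := fun e => Q.dim e = 1))
    simp only [hseg, hQΩ] at this
    exact this
  obtain ⟨δ, hδ, hcov⟩ := exists_cover hΩ hΛ hf P hP
  obtain ⟨K, hKc, hKΛ, hbox, hsm, hgl, hcr, hlev⟩ := hK₀ X (f := f) a b (fun e => ζ e) s co A hΛ hΛb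
    hδ hXlf (fun n => (hX n).2) (fun e => ⟨hab e, hf.cont.mono (hsΩ e),
      (hf.mapsTo.mono_left (hsΩ e)).image_subset, hV e _ _ e.2 (hseg e), hζ e⟩)
    (lf_image hf hlf hsΩ) hA
  obtain ⟨O, hO, hOlf, hOP⟩ := hcov K hKΛ hsm
  obtain ⟨g, g', Z, hg, hZ, hZN, hgc, hgO, hge⟩ := t0_thm (N := Q.skel 2) a b K O hΩ hΛ hΩc hf hG
    (hQΩ ▸ (Q.sub_skel 2).closedIn) (interior_skel hQ)
    (fun e => ⟨hsΩ e, hV e _ _ e.2 (hseg e), (hcr e).1⟩) hlf hKc hKΛ hgl hO hOlf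
  have h2Ω : Q.skel 2 ⊆ Ω := hQΩ ▸ Q.skel_subset_carrier 2
  have hg2 : ConicalOn g (Q.skel 2) := hgc.mono (Q.sub_skel 2).conicalSet fun x hx =>
    ⟨h2Ω hx, fun hz => disjoint_left.1 hZN hz hx⟩
  have hcs : ∀ e, crossSum K g (a e) (b e) ≤ K₀ * segVar f (a e) (b e) + ζ e := fun e =>
    (crossSum_mono K (hge e).2).trans (hcr e).2
  obtain ⟨Ψ, hΨ2, hΨc, hΨl⟩ := hK₁ (g := g) a b (fun e => ζ e) K hΛ hKc hKΛ hbox
    (fun e => ⟨⟨hg.cont.mono (hsΩ e), hg2.mono (Convex.conicalSet (convex_segment _ _)) (hs2 e)⟩,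
      (hg.mapsTo.mono_left (hsΩ e)).image_subset, (hge e).1,
      (hcs e).trans_lt (ENNReal.add_lt_top.2 ⟨ENNReal.mul_lt_top ENNReal.coe_lt_top
        (hV e _ _ e.2 (hseg e)), hζt e⟩), hζ e⟩) (lf_image hg hlf hsΩ)
  have hh : HomeoOn (Ψ.toFun ∘ g) (g' ∘ Ψ.invFun) Ω Λ :=
    { mapsTo := Ψ.mapsTo.comp hg.mapsTo
      mapsTo_inv := hg.mapsTo_inv.comp Ψ.mapsTo_inv
      left_inv := fun x hx => by
        simp only [Function.comp]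
        rw [Ψ.left_inv (hg.mapsTo hx), hg.left_inv hx]
      right_inv := fun y hy => by
        simp only [Function.comp]
        rw [hg.right_inv (Ψ.mapsTo_inv hy), Ψ.right_inv hy]
      cont := Ψ.cont.comp hg.cont hg.mapsTo
      cont_inv := hg.cont_inv.comp Ψ.cont_inv Ψ.mapsTo_inv }
  have hYΛ : (Ψ.toFun ∘ g) '' Q.skel 2 ⊆ Λ := (hh.mapsTo.mono_left h2Ω).image_subset
  have hclose : ∀ x ∈ Ω, ∃ c, P x c ∧ dist (Ψ.toFun (g x)) (f x) < c := by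
    intro x hx
    obtain ⟨j, hj, hgj⟩ := hgO x hx
    obtain ⟨c, hc, h⟩ := hOP j x hj
    obtain ⟨l, hl, hgl⟩ := mem_iUnion₂.1 hgj
    exact ⟨c, hc, h _ (mem_iUnion₂.2 ⟨l, hl, hΨc l ▸ mem_image_of_mem _ hgl⟩)⟩
  choose! t ht htS using hlev
  refine ⟨t, (Ψ.toFun ∘ g) '' Q.skel 2,
    { toFun := Ψ.toFun ∘ g
      invFun := g' ∘ Ψ.invFun
      mapsTo := mapsTo_image _ _
      mapsTo_inv := by
        rintro _ ⟨x, hx, rfl⟩
        rwa [hh.left_inv (h2Ω hx)]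
      left_inv := hh.left_inv.mono h2Ω
      right_inv := hh.right_inv.mono hYΛ
      cont := hh.cont.mono h2Ω
      cont_inv := hh.cont_inv.mono hYΛ
      conical := Ψ.conical.comp hg2 (hg.mapsTo.mono_left h2Ω) (hg.cont.mono h2Ω) },
    fun n k hk => ⟨ht n k hk, fun e x y he hxy heX => ?_⟩,
    fun x hx => hclose x (h2Ω hx),
    fun C hC hCΛ => (lf_image hh (hQΩ ▸ Q.lfIn)
      fun i => hQΩ ▸ Q.cell_subset_carrier i).finite_meet hC hCΛ, fun e x y he hxy => ?_⟩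
  · have hs : segment ℝ x y = segment ℝ (a ⟨e, he⟩) (b ⟨e, he⟩) := hxy.symm.trans (hseg ⟨e, he⟩)
    rw [cnt_congr _ hs, cnt_congr _ hs]
    refine cnt_plane K (g := g) (hX n).1 (hKΛ ▸ (hX n).2)
      (fun z hz hzH => let ⟨S, h1, h2, h3⟩ := htS n k hk z hz hzH; ⟨S, h1, h2, h3⟩)
      (fun u hu => ⟨heX u (hxy ▸ hs ▸ hu), fun h2 => ?_⟩) (hcr _).1 (hge _).2
    have h3 := hg.mapsTo (hsΩ _ hu)
    exact Ψ.injOn h3 (Ψ.mapsTo h3) (hΨ2 _ h2).symm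
  · have hs : segment ℝ x y = segment ℝ (a ⟨e, he⟩) (b ⟨e, he⟩) := hxy.symm.trans (hseg ⟨e, he⟩)
    rw [TP.segVar_congr _ hs]
    change μH[1] ((Ψ.toFun ∘ g) '' Q.cell e) ≤ _
    rw [image_comp, hxy, hs]
    refine (hΨl ⟨e, he⟩).trans ((add_le_add (mul_le_mul_right (hcs _) _) le_rfl).trans ?_)
    rw [mul_add, ← mul_assoc, add_assoc, ENNReal.coe_mul]
    exact add_le_add le_rfl (hζη e)

/-- gluing of realisations which differ from a given one in far apart places -/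
theorem glue {Q : RCx E3} {Λ : Set E3} {R₀ O : Q.ι → Set E3} {R : ℕ → Q.ι → Set E3}
    {T : ℕ → Set Q.ι} (h₀ : Realiz Q 2 R₀) (hR : ∀ n, Realiz Q 2 (R n))
    (hK : ∀ n l j, Q.dim j ≤ 2 → Q.cell j ⊆ Q.cell l → l ∉ T n → R n j = R₀ j)
    (hO₀ : ∀ l j, Q.dim j ≤ 2 → Q.cell j ⊆ Q.cell l → R₀ j ⊆ O l)
    (hO : ∀ n l j, Q.dim j ≤ 2 → Q.cell j ⊆ Q.cell l → R n j ⊆ O l)
    (hsep : ∀ n m, n ≠ m → ∀ l ∈ T n, ∀ l' ∈ T m, Disjoint (O l) (O l'))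
    (hOΛ : ∀ l, O l ⊆ Λ) (hlf : LFIn O Λ) :
    ∃ S : Q.ι → Set E3, Realiz Q 2 S ∧
      (∀ n, ∀ l ∈ T n, ∀ j, Q.dim j ≤ 2 → Q.cell j ⊆ Q.cell l → S j = R n j) ∧
      (∀ j, (∀ n, j ∉ T n) → S j = R₀ j) ∧
      ∀ l j, Q.dim j ≤ 2 → Q.cell j ⊆ Q.cell l → S j ⊆ O l := by
  classical
  let S : Q.ι → Set E3 := fun j => if h : ∃ n, j ∈ T n then R (Nat.find h) j else R₀ j
  have uniq : ∀ n m l j, Q.dim j ≤ 2 → Q.cell j ⊆ Q.cell l → l ∈ T n → j ∈ T m → n = m := by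
    intro n m l j hj hjl hl hm
    by_contra hne
    obtain ⟨y, hy⟩ := h₀.open_nonempty hj
    exact disjoint_left.1 (hsep n m hne l hl j hm) (hO₀ l j hj hjl hy.1)
      (hO₀ j j hj Subset.rfl hy.1)
  have S1 : ∀ n, ∀ l ∈ T n, ∀ j, Q.dim j ≤ 2 → Q.cell j ⊆ Q.cell l → S j = R n j := by
    intro n l hl j hj hjl
    by_cases h : ∃ n, j ∈ T n
    · simp only [S, dif_pos h]
      rw [uniq n _ l j hj hjl hl (Nat.find_spec h)]
    · simp only [S, dif_neg h]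
      exact (hK n j j hj Subset.rfl fun h' => h ⟨n, h'⟩).symm
  have S0 : ∀ l, (∀ n, l ∉ T n) → ∀ j, Q.dim j ≤ 2 → Q.cell j ⊆ Q.cell l → S j = R₀ j := by
    intro l hl j hj hjl
    by_cases h : ∃ n, j ∈ T n
    · simp only [S, dif_pos h]
      exact hK _ l j hj hjl (hl _)
    · simp only [S, dif_neg h]
  have SO : ∀ l j, Q.dim j ≤ 2 → Q.cell j ⊆ Q.cell l → S j ⊆ O l := by
    intro l j hj hjl
    by_cases h : ∃ n, j ∈ T n
    · simp only [S, dif_pos h]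
      exact hO _ l j hj hjl
    · simp only [S, dif_neg h]
      exact hO₀ l j hj hjl
  have rb : ∀ {R' : Q.ι → Set E3} {i : Q.ι}, Q.dim i ≤ 2 →
      (∀ j, Q.dim j ≤ 2 → Q.cell j ⊆ Q.cell i → S j = R' j) →
      S i = R' i ∧ Q.rbd S i = Q.rbd R' i := by
    intro R' i hi h
    refine ⟨h i hi Subset.rfl, ?_⟩
    ext y
    simp only [Q.mem_rbd]
    refine exists_congr fun j => and_congr_right fun hj => ?_
    have := Q.dim_lt hj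
    rw [h j (by omega) (hj.trans (Q.bd_subset i))]
  have ref : ∀ i i', Q.dim i ≤ 2 → Q.dim i' ≤ 2 → (∃ n, i ∈ T n ∧ (i' ∈ T n ∨ ∀ m, i' ∉ T m)) →
      i ≠ i' → Disjoint (S i \ Q.rbd S i) (S i' \ Q.rbd S i') := by
    rintro i i' hi hi' ⟨n, hn, h⟩ hne
    obtain ⟨a1, a2⟩ := rb hi (S1 n i hn)
    obtain ⟨b1, b2⟩ := rb (R' := R n) hi' (by
      rcases h with h | h
      · exact S1 n i' h
      · exact fun j hj hji => (S0 i' h j hj hji).trans (hK n i' j hj hji (h n)).symm)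
    rw [a1, a2, b1, b2]
    exact (hR n).disj i i' hi hi' hne
  refine ⟨S, ⟨fun i hi => ?_, fun i i' hi hi' hne => ?_, fun y hy => ?_⟩, S1, fun j hj => ?_, SO⟩
  · by_cases h : ∃ n, i ∈ T n
    · obtain ⟨n, hn⟩ := h
      obtain ⟨a1, a2⟩ := rb hi (S1 n i hn)
      rw [a1, a2]; exact (hR n).ball i hi
    · obtain ⟨a1, a2⟩ := rb hi (S0 i fun n hn => h ⟨n, hn⟩)
      rw [a1, a2]; exact h₀.ball i hi
  · by_cases h : ∃ n, i ∈ T n
    · obtain ⟨n, hn⟩ := h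
      by_cases h' : ∃ m, i' ∈ T m
      · obtain ⟨m, hm⟩ := h'
        by_cases hnm : n = m
        · exact ref i i' hi hi' ⟨n, hn, Or.inl (hnm ▸ hm)⟩ hne
        · exact (hsep n m hnm i hn i' hm).mono (sdiff_subset.trans (SO i i hi Subset.rfl))
            (sdiff_subset.trans (SO i' i' hi' Subset.rfl))
      · exact ref i i' hi hi' ⟨n, hn, Or.inr fun m hm => h' ⟨m, hm⟩⟩ hne
    · by_cases h' : ∃ m, i' ∈ T m
      · obtain ⟨m, hm⟩ := h'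
        exact (ref i' i hi' hi ⟨m, hm, Or.inr fun n hn => h ⟨n, hn⟩⟩ hne.symm).symm
      · obtain ⟨a1, a2⟩ := rb hi (S0 i fun n hn => h ⟨n, hn⟩)
        obtain ⟨b1, b2⟩ := rb hi' (S0 i' fun n hn => h' ⟨n, hn⟩)
        rw [a1, a2, b1, b2]
        exact h₀.disj i i' hi hi' hne
  · obtain ⟨i, hi, hyi⟩ := Q.mem_rskel.1 hy
    obtain ⟨U, hU, hfin⟩ := hlf y (hOΛ i (SO i i hi Subset.rfl hyi))
    exact ⟨U, hU, hfin.subset fun j hj =>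
      hj.2.mono (inter_subset_inter_left _ (SO j j hj.1 Subset.rfl))⟩
  · simp only [S, dif_neg (fun h : ∃ n, j ∈ T n => let ⟨n, hn⟩ := h; hj n hn)]

end P073.Inf
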