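import Vale.Agent.P073Y.Inf.Psi

/-!
# Realisation of the two-skeleton for a locally finite family of good zones
-/

open Set Metric Topology Filter MeasureTheory
open scoped ENNReal NNReal

namespace P073.Inf

open TP STR

/-- the affine images of the good cells -/
def gim {Q : RCx E3} {f : E3 → E3} {κ₀ : ℝ → ℝ} {β : ℝ} (γ : Good Q f κ₀ β) : Set E3 :=
  ⋃ j ∈ γ.G, γ.A j '' Q.cell j

/-- the region in which the surgery for a family of good cells takes place -/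
def zn {Q : RCx E3} {f : E3 → E3} {κ₀ : ℝ → ℝ} {β : ℝ} (γ : Good Q f κ₀ β) : Set E3 :=
  cthickening (100 * β) (gim γ)

theorem dim_single {Q : RCx E3} (hQ : Q.Cvx) {v : Q.ι} {x : E3} (hx : Q.cell v = {x}) :
    Q.dim v = 0 := by
  rw [(hQ v).2.2, hx, vectorSpan_singleton, finrank_bot]

theorem wire_of {Q : RCx E3} (hQ : Q.Cvx) {e : Q.ι} {x y : E3} (he : Q.dim e = 1)
    (h : Q.cell e = segment ℝ x y) : Wire Q e x y := by
  obtain ⟨p, q, hw⟩ := exists_wire hQ he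
  rcases segment_ends (h.symm.trans hw.2.2.1) with ⟨rfl, rfl⟩ | ⟨rfl, rfl⟩
  · exact hw
  · exact hw.symm

section one

variable {Q : RCx E3} {f : E3 → E3} {β : ℝ} (γ : Good Q f kap β)

theorem gim_compact : IsCompact (gim γ) := γ.G.isCompact_biUnion fun i _ =>
  (Q.isCompact_cell i).image (γ.A i).continuous_of_finiteDimensional

theorem sub_gim {i : Q.ι} (hi : i ∈ γ.G) : γ.A i '' Q.cell i ⊆ gim γ :=
  subset_biUnion_of_mem (u := fun j => γ.A j '' Q.cell j) (Finset.mem_coe.2 hi)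

theorem vert_gim (hQ : Q.Cvx) {v : Q.ι} {x : E3} (hv : v ∈ γ.G) (hx : Q.cell v = {x}) :
    f x ∈ gim γ := by
  have hxv : x ∈ Q.cell v := hx ▸ mem_singleton x
  exact sub_gim γ hv ⟨x, hxv, γ.vert v hv (dim_single hQ hx) hxv⟩

/-- the good structure survives a change of the map far away -/
noncomputable def change (hQ : Q.Cvx) {g : E3 → E3} {W : Set E3} (hg : EqOn g f W)
    (hW : ∀ v ∈ γ.G, ∀ x, Q.cell v = {x} → ∀ e, x ∈ Q.cell e → Q.cell e ⊆ W)
    (hfar : ∀ x ∈ Q.skel 2, x ∉ W → ∀ y ∈ gim γ, β ≤ dist (g x) y) : Good Q g kap β where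
  G := γ.G
  A := γ.A
  s := γ.s
  M := γ.M
  face := γ.face
  simplex := γ.simplex
  vert := fun v hv h0 x hx => by
    obtain ⟨a, ha⟩ := Q.exists_vertex h0
    rw [hg (hW v hv a ha v (ha ▸ mem_singleton a) hx)]
    exact γ.vert v hv h0 hx
  inj := γ.inj
  inter := γ.inter
  pos := γ.pos
  sep := γ.sep
  deg := γ.deg
  wire := fun v hv e x y he hx hxy => by
    have h1 : segment ℝ x y ⊆ W := hxy ▸ hW v hv x hx e (hxy ▸ left_mem_segment ℝ x y)
    obtain ⟨a1, a2, a3⟩ := γ.wire v hv e x y he hx hxy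
    rw [hg (h1 (left_mem_segment ℝ x y)), hg (h1 (right_mem_segment ℝ x y))]
    refine ⟨a1, a2, le_of_eq_of_le (eVariationOn.eq_of_eqOn fun t ht => ?_) a3⟩
    rw [hg (h1 (lineMap_mem_segment ℝ x y ht))]
  far := fun i hi e he hd x hx y hy => by
    by_cases hxW : x ∈ W
    · rw [hg hxW]; exact γ.far i hi e he hd x hx y hy
    · refine le_trans ?_ (hfar x (Q.cell_subset_skel (by omega) hx) hxW y (sub_gim γ hi hy))
      rw [div_eq_mul_inv]
      exact (eta_le γ hi).2.2.1.trans (s_le γ hi)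
  ang := fun i hi e x y he hxy hx hy t ht z hz => by
    have hw := wire_of hQ he hxy
    obtain ⟨v, hv, hvx⟩ := hw.vertex
    have h1 : segment ℝ x y ⊆ W :=
      hxy ▸ hW v (A_vertex γ hi hv hvx hx).1 x hvx e hw.left_mem
    rw [hg (h1 (left_mem_segment ℝ x y)), hg (h1 (right_mem_segment ℝ x y))]
    exact γ.ang i hi e x y he hxy hx hy t ht z hz

/-- the surgery in one zone -/
theorem zone (hβ : 0 < β) (hO : IsOpen Q.carrier) (hQ : Q.Cvx) {W Y : Set E3}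
    (t : Q.ι × Fin 3 × Bool → ℝ) (ψ : ConHomeo (Q.skel 2) Y)
    (hW : ∀ v ∈ γ.G, ∀ x, Q.cell v = {x} → ∀ e, x ∈ Q.cell e → Q.cell e ⊆ W)
    (hfar : ∀ x ∈ Q.skel 2, x ∉ W → ∀ y ∈ gim γ, β ≤ dist (ψ.toFun x) y)
    (ht : ∀ v ∈ γ.G, ∀ x, Q.dim v = 0 → Q.cell v = {x} → ∀ k, LevOK γ v x k (t (v, k)) ∧
      ∀ e y, Wire Q e x y →
        cnt ψ.toFun x y {z | z k.1 = t (v, k)} ≤ cnt f x y {z | z k.1 = t (v, k)})
    (hψ : ∀ i ∈ γ.G, ∀ x ∈ Q.skel 2, x ∈ W → dist (ψ.toFun x) (f x) ≤ kap (γ.M i) * γ.s i)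
    (hfin : {j | (ψ.toFun '' Q.cell j ∩ zn γ).Nonempty}.Finite) :
    ∃ R : Q.ι → Set E3, Realiz Q 2 R ∧ (∀ i ∈ γ.G, Q.dim i ≤ 2 → R i = γ.A i '' Q.cell i) ∧
      (∀ i, Q.dim i ≤ 2 → R i ⊆ thickening (40 * β) (ψ.toFun '' Q.cell i) ∧
        (Disjoint (ψ.toFun '' Q.cell i) (thickening (30 * β) (gim γ)) →
          R i = ψ.toFun '' Q.cell i)) ∧
      ∀ e x y, Q.dim e = 1 → Q.cell e = segment ℝ x y → Q.cell e ⊆ W →
        μH[1] (R e) ≤ 2 * μH[1] (ψ.toFun '' Q.cell e) + 10 * segVar f x y := by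
  classical
  have hg : EqOn (W.piecewise f ψ.toFun) f W := fun x hx => piecewise_eq_of_mem _ _ _ hx
  set g := W.piecewise f ψ.toFun with hgdef
  have hg' : ∀ x, x ∉ W → g x = ψ.toFun x := fun x hx => piecewise_eq_of_notMem _ _ _ hx
  let γ' := change γ hQ hg hW fun x hx hxW y hy => (hg' x hxW).symm ▸ hfar x hx hxW y hy
  have hlf : ∀ i ∈ γ.G, ∀ d, d ≤ 100 * β →
      {j | (ψ.toFun '' Q.cell j ∩ thickening d (γ.A i '' Q.cell i)).Nonempty}.Finite :=
    fun i hi d hd => hfin.subset fun j hj => Nonempty.mono (inter_subset_inter_right _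
      ((thickening_subset_of_subset _ (sub_gim γ hi)).trans
        ((thickening_mono hd _).trans (thickening_subset_cthickening _ _)))) hj
  obtain ⟨R₁, hR₁⟩ := stage1 γ' cs_thm cross hβ hO hQ t ψ (fun v hv x hv0 hx k => by
    obtain ⟨⟨a1, a2, a3⟩, b⟩ := ht v hv x hv0 hx k
    have hxW : x ∈ W := hW v hv x hx v (hx ▸ mem_singleton x) (hx ▸ mem_singleton x)
    have hs : ∀ e y, Wire Q e x y → segment ℝ x y ⊆ W := fun e y he =>
      he.2.2.1 ▸ hW v hv x hx e he.left_mem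
    refine ⟨⟨by rw [hg hxW]; exact a1, by rw [hg hxW]; exact a2, fun e y he => ?_⟩,
      fun e y he => (b e y he).trans (le_of_eq ?_)⟩
    · obtain ⟨c1, c2, c3⟩ := a3 e y he
      have hy := hg (hs e y he (right_mem_segment ℝ x y))
      have e1 : {p ∈ segment ℝ x y | g p k.1 = t (v, k)} =
          {p ∈ segment ℝ x y | f p k.1 = t (v, k)} :=
        Set.ext fun p => and_congr_right fun hp => by rw [hg (hs e y he hp)]
      rw [hy, hg hxW, e1]
      exact ⟨c1, c2, fun h p hp => by rw [hg (hs e y he hp)]; exact c3 h p hp⟩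
    · unfold cnt
      congr 2
      exact Set.ext fun p => and_congr_right fun hp => by rw [hg (hs e y he hp)])
    (fun i hi x hx => by
      by_cases hxW : x ∈ W
      · rw [hg hxW]; exact hψ i hi x hx hxW
      · rw [hg' x hxW, dist_self]
        exact (mul_pos (kap_pos _) (γ.pos i hi).1).le)
    (fun i hi => (hlf i hi _ (by linarith)).subset fun j hj => hj.2)
  obtain ⟨R, hR, hR1, hRi, hRl, hRm⟩ := edge_of cs_thm (tent_of nearid) Q γ' _ R₁ hβ hO hQ hR₁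
    (fun i hi => (hlf i hi _ (by linarith)).subset fun j hj => hj.2)
  obtain ⟨R', hR', hR'1, hR'2, hR'm⟩ := flat Q γ' R hβ hO hQ hR hR1 hRi fun i hi =>
    (hlf i hi (30 * β + 10 * β) (by linarith)).subset fun j hj => meet_thick (hRm j hj.1).1 hj.2
  refine ⟨R', hR', hR'2, fun i hi => ⟨?_, fun hd => ?_⟩, fun e x y he hxy heW => ?_⟩
  · exact (thick_trans (hR'm i hi).1 (hRm i hi).1).trans (thickening_mono (by linarith) _)
  · have h1 : R i = ψ.toFun '' Q.cell i := (hRm i hi).2 hd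
    rw [(hR'm i hi).2 (h1 ▸ hd.mono_right (thickening_mono (by linarith) _)), h1]
  · rw [hR'1 e he.le]
    refine (hRl e x y he hxy).trans (le_of_eq ?_)
    congr 2
    exact eVariationOn.eq_of_eqOn fun τ hτ => hg (heW (hxy ▸ lineMap_mem_segment ℝ x y hτ))

/-- wires at good vertices are short -/
theorem wire_near {v e : Q.ι} {x y : E3} (hv : v ∈ γ.G) (hx : Q.cell v = {x})
    (he : Wire Q e x y) {u : E3} (hu : u ∈ Q.cell e) : dist (f u) (f x) ≤ 2 * β := by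
  rw [he.2.2.1, segment_eq_image_lineMap] at hu
  obtain ⟨τ, hτ, rfl⟩ := hu
  have h1 := chord_close γ hv hx he hτ
  have h2 := (chord_len γ hv hx he).2.2
  obtain ⟨e1, e2, e3, e4⟩ := eta_le γ hv
  have h3 : dist (AffineMap.lineMap (f x) (f y) τ) (f x) ≤ β := by
    rw [dist_lineMap_left, Real.norm_eq_abs, abs_of_nonneg hτ.1, dist_comm]
    exact (mul_le_of_le_one_left dist_nonneg hτ.2).trans h2
  linarith [dist_triangle (f (AffineMap.lineMap x y τ)) (AffineMap.lineMap (f x) (f y) τ) (f x)]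

end one

/-- the data of the machine with infinitely many zones -/
structure Data (Ω Λ : Set E3) (f f' : E3 → E3) (Q : RCx E3) (κ₀ : ℝ → ℝ) (β : ℕ → ℝ)
    (γ : ∀ n, Good Q f κ₀ (β n)) (O : Q.ι → Set E3) (ϱ : Q.ι → ℝ) : Prop where
  oΩ : IsOpen Ω
  oΛ : IsOpen Λ
  cΩ : IsConnected Ω
  bΛ : Bornology.IsBounded Λ
  homeo : HomeoOn f f' Ω Λ
  gen : GenBV f Ω
  cvx : Q.Cvx
  car : Q.carrier = Ω
  fin : ∀ e x y, Q.dim e = 1 → Q.cell e = segment ℝ x y → segVar f x y < ⊤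
  pos : ∀ n, 0 < β n
  sub : ∀ i, O i ⊆ Λ
  rpos : ∀ i, 0 < ϱ i
  thick : ∀ i, thickening (ϱ i) (f '' Q.cell i) ⊆ O i
  big : ∀ n i, (thickening (100 * β n) (gim (γ n)) ∩ f '' Q.cell i).Nonempty → 100 * β n ≤ ϱ i
  lf : LFIn O Λ
  zsub : ∀ n, zn (γ n) ⊆ Λ
  zlf : LFIn (fun n => zn (γ n)) Λ
  sep : ∀ n m, n ≠ m → ∀ l l', (O l ∩ zn (γ n)).Nonempty → (O l' ∩ zn (γ m)).Nonempty →
    Disjoint (O l) (O l')

theorem reali : ∃ K₂ : ℝ≥0, ∀ {Ω Λ : Set E3} {f f' : E3 → E3} {Q : RCx E3} {β : ℕ → ℝ}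
    {γ : ∀ n, Good Q f kap (β n)} {O : Q.ι → Set E3} {ϱ : Q.ι → ℝ} (η : Q.ι → ℝ≥0∞),
    Data Ω Λ f f' Q kap β γ O ϱ → (∀ i, 0 < η i) →
    ∃ R : Q.ι → Set E3, Realiz Q 2 R ∧
      (∀ n, ∀ i ∈ (γ n).G, Q.dim i ≤ 2 → R i = (γ n).A i '' Q.cell i) ∧
      (∀ l i, Q.dim i ≤ 2 → Q.cell i ⊆ Q.cell l → R i ⊆ O l) ∧
      ∀ e x y, Q.dim e = 1 → Q.cell e = segment ℝ x y →
        μH[1] (R e) ≤ K₂ * segVar f x y + η e := by
  classical
  obtain ⟨K₃, hK₃⟩ := exists_psi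
  refine ⟨2 * K₃ + 10, ?_⟩
  intro Ω Λ f f' Q β γ O ϱ η D hη
  have hQ := D.cvx
  have hQo : IsOpen Q.carrier := D.car ▸ D.oΩ
  have hfc : ContinuousOn f Q.carrier := D.car ▸ D.homeo.cont
  have hex : ∀ n, ∀ p : Q.ι × Fin 3 × Bool, ∃ A : Set ℝ, p.1 ∈ (γ n).G → Q.dim p.1 = 0 →
      volume A ≠ 0 ∧ ∀ x, Q.cell p.1 = {x} → ∀ t ∈ A, LevOK (γ n) p.1 x p.2 t := by
    intro n p
    by_cases h : p.1 ∈ (γ n).G ∧ Q.dim p.1 = 0
    · obtain ⟨x, hx⟩ := Q.exists_vertex h.2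
      obtain ⟨A, -, h2, h3⟩ := exists_levels (γ n) lev hQ hfc h.1 h.2 hx p.2
      refine ⟨A, fun _ _ => ⟨h2, fun y hy => ?_⟩⟩
      obtain rfl : x = y := singleton_injective (hx.symm.trans hy)
      exact h3
    · exact ⟨∅, fun h1 h2 => absurd ⟨h1, h2⟩ h⟩
  choose A hA using hex
  have hc : ∀ n, ∃ c > 0, c ≤ β n ∧ ∀ i ∈ (γ n).G, c ≤ kap ((γ n).M i) * (γ n).s i := by
    intro n
    have h : ∀ᶠ c in 𝓝[>] (0:ℝ), c ≤ β n ∧ ∀ i ∈ (γ n).G, c ≤ kap ((γ n).M i) * (γ n).s i :=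
      mem_nhdsWithin_of_mem_nhds ((eventually_le_nhds (D.pos n)).and
        ((eventually_all_finset _).2 fun i hi =>
          eventually_le_nhds (mul_pos (kap_pos _) ((γ n).pos i hi).1)))
    obtain ⟨c, hc, h⟩ := (h.and self_mem_nhdsWithin).exists
    exact ⟨c, h, hc⟩
  choose c hc hcβ hcκ using hc
  let T : ℕ → Set Q.ι := fun n => {l | (O l ∩ zn (γ n)).Nonempty}
  let W : ℕ → Set E3 := fun n => ⋃ l ∈ T n, Q.cell l
  have hr : ∀ i, ∃ r > 0, r ≤ ϱ i ∧ ∀ n, i ∈ T n → r ≤ c n := by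
    intro i
    by_cases h : ∃ n, i ∈ T n
    · obtain ⟨n, hn⟩ := h
      refine ⟨min (ϱ i) (c n), lt_min (D.rpos i) (hc n), min_le_left _ _, fun m hm => ?_⟩
      by_cases hnm : n = m
      · exact hnm ▸ min_le_right _ _
      · obtain ⟨y, hy, -⟩ := id hn
        exact absurd hy (disjoint_left.1 (D.sep n m hnm i i hn hm) hy)
    · exact ⟨ϱ i, D.rpos i, le_rfl, fun n hn => absurd ⟨n, hn⟩ h⟩
  choose r hr hrϱ hrc using hr
  have hfO : ∀ l, ∀ x ∈ Q.cell l, f x ∈ O l := fun l x hx =>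
    D.thick l (self_subset_thickening (D.rpos l) _ (mem_image_of_mem _ hx))
  have hT : ∀ n, ∀ v ∈ (γ n).G, ∀ x, Q.cell v = {x} → ∀ e, x ∈ Q.cell e → e ∈ T n :=
    fun n v hv x hx e he =>
      ⟨f x, hfO e x he, self_subset_cthickening _ (vert_gim (γ n) hQ hv hx)⟩
  choose ζ hζ hζt hζη using fun e => exists_small 1 (hη e)
  obtain ⟨t, Y, ψ, hcnt, hcl, hlf, hlen⟩ := hK₃ (fun n => zn (γ n)) Q
    (fun n => ((γ n).G.filter fun v => Q.dim v = 0) ×ˢ (Finset.univ : Finset (Fin 3 × Bool)))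
    (fun k => k.2.1) A (fun y d => ∀ i, y ∈ Q.cell i → d ≤ r i) ζ D.oΩ D.oΛ D.cΩ D.bΛ D.homeo
    D.gen hQ D.car D.fin (fun n k hk => by
      have := Finset.mem_filter.1 (Finset.mem_product.1 hk).1
      exact (hA n k this.1 this.2).1) D.zlf
    (fun n => ⟨(gim_compact (γ n)).cthickening, D.zsub n⟩) (fun x hx => by
      have hx' : x ∈ Q.carrier := D.car ▸ hx
      have h : ∀ᶠ d in 𝓝[>] (0:ℝ), ∀ i ∈ {i | x ∈ Q.cell i}, d ≤ r i :=
        mem_nhdsWithin_of_mem_nhds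
          ((eventually_all_finite (Q.finite_mem hx')).2 fun i _ => eventually_le_nhds (hr i))
      obtain ⟨d, hd, h⟩ := (h.and self_mem_nhdsWithin).exists
      exact ⟨d, h, (Q.eventually_star hx').mono fun y hy i hi => hd i (hy i hi)⟩) hζ
  have hcl' : ∀ l, ∀ x ∈ Q.skel 2, x ∈ Q.cell l → dist (ψ.toFun x) (f x) < r l :=
    fun l x hx hl => let ⟨d, hd, h⟩ := hcl x hx; h.trans_le (hd l hl)
  have hψ : ∀ l i d, Q.dim i ≤ 2 → Q.cell i ⊆ Q.cell l → r l ≤ d →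
      ψ.toFun '' Q.cell i ⊆ thickening d (f '' Q.cell l) := by
    rintro l i d hi hil hd _ ⟨x, hx, rfl⟩
    exact mem_thickening_iff.2 ⟨f x, mem_image_of_mem _ (hil hx),
      (hcl' l x (Q.cell_subset_skel hi hx) (hil hx)).trans_le hd⟩
  have hO₀ : ∀ l j, Q.dim j ≤ 2 → Q.cell j ⊆ Q.cell l → ψ.toFun '' Q.cell j ⊆ O l :=
    fun l j hj hjl => (hψ l j _ hj hjl (hrϱ l)).trans (D.thick l)
  have hz : ∀ n, ∃ R : Q.ι → Set E3, Realiz Q 2 R ∧
      (∀ i ∈ (γ n).G, Q.dim i ≤ 2 → R i = (γ n).A i '' Q.cell i) ∧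
      (∀ i, Q.dim i ≤ 2 → R i ⊆ thickening (40 * β n) (ψ.toFun '' Q.cell i) ∧
        (Disjoint (ψ.toFun '' Q.cell i) (thickening (30 * β n) (gim (γ n))) →
          R i = ψ.toFun '' Q.cell i)) ∧
      ∀ e x y, Q.dim e = 1 → Q.cell e = segment ℝ x y → Q.cell e ⊆ W n →
        μH[1] (R e) ≤ 2 * μH[1] (ψ.toFun '' Q.cell e) + 10 * segVar f x y := by
    intro n
    have hβ := D.pos n
    refine zone (γ n) hβ hQo hQ (t n) ψ
      (fun v hv x hx e he => subset_biUnion_of_mem (u := Q.cell) (hT n v hv x hx e he))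
      (fun x hx hxW y hy => ?_) (fun v hv x hv0 hx k => ?_) (fun i hi x hx hxW => ?_)
      (hlf _ (gim_compact (γ n)).cthickening (D.zsub n))
    · obtain ⟨l, hl, hxl⟩ := Q.mem_skel.1 hx
      by_contra hlt
      refine hxW (mem_biUnion (show l ∈ T n from
        ⟨ψ.toFun x, hO₀ l l hl Subset.rfl (mem_image_of_mem _ hxl), ?_⟩) hxl)
      exact mem_cthickening_of_dist_le _ y _ _ hy (by linarith [not_le.1 hlt])
    · have h := hcnt n (v, k)
        (Finset.mem_product.2 ⟨Finset.mem_filter.2 ⟨hv, hv0⟩, Finset.mem_univ _⟩)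
      refine ⟨(hA n (v, k) hv hv0).2 x hx _ h.1, fun e y he =>
        h.2 e x y he.1 he.2.2.1 fun u hu => ?_⟩
      have h1 := wire_near (γ n) hv hx he hu
      have h2 := (hcl' e u (Q.cell_subset_skel (by have := he.1; omega) hu) hu).le.trans
        ((hrc e n (hT n v hv x hx e he.left_mem)).trans (hcβ n))
      exact mem_cthickening_of_dist_le _ (f x) _ _ (vert_gim (γ n) hQ hv hx)
        (by linarith [dist_triangle (ψ.toFun u) (f u) (f x)])
    · obtain ⟨l, hl, hxl⟩ := mem_iUnion₂.1 hxW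
      exact (hcl' l x hx hxl).le.trans ((hrc l n hl).trans (hcκ n i hi))
  choose R hR hRA hRm hRl using hz
  have hth : ∀ n, thickening (30 * β n) (gim (γ n)) ⊆ zn (γ n) := fun n =>
    (thickening_mono (by linarith [D.pos n]) _).trans (thickening_subset_cthickening _ _)
  have hK : ∀ n l j, Q.dim j ≤ 2 → Q.cell j ⊆ Q.cell l → l ∉ T n →
      R n j = ψ.toFun '' Q.cell j := fun n l j hj hjl hl =>
    (hRm n j hj).2 (disjoint_left.2 fun y h1 h2 => hl ⟨y, hO₀ l j hj hjl h1, hth n h2⟩)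
  obtain ⟨S, hS, S1, S0, SO⟩ := glue (T := T) (O := O) (Λ := Λ) ((Q.realiz_cell 2).image ψ Subset.rfl) hR hK hO₀
    (fun n l j hj hjl => by
      have hβ := D.pos n
      by_cases hl : l ∈ T n
      · have h1 := hψ l j (β n) hj hjl ((hrc l n hl).trans (hcβ n))
        by_cases hn : (thickening (100 * β n) (gim (γ n)) ∩ f '' Q.cell l).Nonempty
        · have := D.big n l hn
          exact (thick_trans (hRm n j hj).1 h1).trans
            ((thickening_mono (by linarith) _).trans (D.thick l))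
        · rw [(hRm n j hj).2 ?_]
          · exact hO₀ l j hj hjl
          by_contra h
          obtain ⟨y, hy, hyt⟩ := meet_thick h1 (not_disjoint_iff_nonempty_inter.1 h)
          exact hn ⟨y, thickening_mono (by linarith) _ hyt, hy⟩
      · rw [hK n l j hj hjl hl]
        exact hO₀ l j hj hjl)
    (fun n m hnm l hl l' hl' => D.sep n m hnm l l' hl hl') D.sub D.lf
  refine ⟨S, hS, fun n i hi h2 => ?_, SO, fun e x y he hxy => ?_⟩
  · obtain ⟨v, hvi, hv⟩ := T0.exists_vertex (K := Q) i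
    obtain ⟨x, hvx⟩ := Q.exists_vertex hv
    have hx : x ∈ Q.cell i := hvi (hvx ▸ mem_singleton x)
    rw [S1 n i (hT n v (A_vertex (γ n) hi hv hvx hx).1 x hvx i hx) i h2 Subset.rfl]
    exact hRA n i hi h2
  · have h1 := hζη e
    rw [ENNReal.coe_one, one_mul, ← two_mul] at h1
    have h2 : 2 * μH[1] (ψ.toFun '' Q.cell e) + 10 * segVar f x y ≤
        ((2 * K₃ + 10 : ℝ≥0) : ℝ≥0∞) * segVar f x y + η e := by
      refine (add_le_add (mul_le_mul_right (hlen e x y he hxy) _) le_rfl).trans ?_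
      push_cast
      calc 2 * (K₃ * segVar f x y + ζ e) + 10 * segVar f x y
          = (2 * K₃ + 10) * segVar f x y + 2 * ζ e := by ring
        _ ≤ _ := add_le_add le_rfl h1
    by_cases h : ∃ n, e ∈ T n
    · obtain ⟨n, hn⟩ := h
      rw [S1 n e hn e (by omega) Subset.rfl]
      exact (hRl n e x y he hxy (subset_biUnion_of_mem (u := Q.cell) hn)).trans h2
    · rw [S0 e fun n hn => h ⟨n, hn⟩]
      refine le_trans ?_ h2
      rw [two_mul, add_assoc]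
      exact le_self_add

end P073.Inf
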